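import Vale.Agent.P047.Main
import Vale.Agent.P047.Amplify

/-!
P047: the linear Fourier mass of a Boolean function is not O(square root of the degree); in fact
the largest mass at degree d grows at least like a power of d with exponent above one half.
-/

namespace Vale.Agent.Results.P047.LinearMassUnbounded

open Vale.Agent.P047

theorem result :
    (∀ C : ℝ, ∃ (n : ℕ) (f : (Fin n → Bool) → ℝ),
      (∀ x, f x = 1 ∨ f x = -1) ∧
      C * Real.sqrt (fourierDeg f) < ∑ i : Fin n, fourierCoeff f {i}) ∧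
    ∃ α c : ℝ, 0 < α ∧ 0 < c ∧ ∀ d : ℕ, 1 ≤ d →
      ∃ (n : ℕ) (f : (Fin n → Bool) → ℝ),
        (∀ x, f x = 1 ∨ f x = -1) ∧ fourierDeg f ≤ d ∧
        c * (d : ℝ) ^ (1 / 2 + α) ≤ ∑ i : Fin n, fourierCoeff f {i} :=
  ⟨unbounded_ratio, power_growth_of_unbounded unbounded_ratio⟩

end Vale.Agent.Results.P047.LinearMassUnbounded
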